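import Mathlib

/-!
The minors of order two of the adjugate are multiples of the determinant.
-/

namespace Vale.Agent.P287.EvenN

open Matrix

section

variable {n : Type*} [Fintype n] [DecidableEq n] {R : Type*} [CommRing R]

lemma updateCol_mulVec' (A : Matrix n n R) (i : n) (b y : n → R) :
    A.updateCol i b *ᵥ y = A *ᵥ y + y i • (b - A *ᵥ Pi.single i 1) := by
  funext a
  have h1 : (A *ᵥ Pi.single i 1) a = A a i := by
    rw [mulVec_single_one]
    rfl
  rw [Pi.add_apply, Pi.smul_apply, Pi.sub_apply, h1, smul_eq_mul, mulVec, mulVec, dotProduct,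
    dotProduct, ← Finset.add_sum_erase _ _ (Finset.mem_univ i),
    ← Finset.add_sum_erase _ _ (Finset.mem_univ i)]
  have h2 : ∀ c ∈ Finset.univ.erase i, A.updateCol i b a c * y c = A a c * y c := by
    intro c hc
    rw [updateCol_ne (Finset.ne_of_mem_erase hc)]
  rw [Finset.sum_congr rfl h2, updateCol_self]
  ring

lemma adjugate_apply' (A : Matrix n n R) (i j : n) :
    A.adjugate i j = A.cramer (Pi.single j 1) i := by
  rw [cramer_eq_adjugate_mulVec, mulVec_single_one]
  rfl

/-- The minors of order two of the adjugate are multiples of the determinant. -/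
theorem adj_minor (A : Matrix n n R) (i j k l : n) :
    A.det ∣ A.adjugate i j * A.adjugate k l - A.adjugate i l * A.adjugate k j := by
  by_cases hik : i = k
  · subst hik
    rw [mul_comm (A.adjugate i l), sub_self]
    exact dvd_zero _
  set A' := A.updateCol i (Pi.single j 1) with hA'
  set y := A'.cramer (Pi.single l 1) with hy
  have h1 : A' *ᵥ y = A'.det • Pi.single l 1 := mulVec_cramer _ _
  have h2 : A'.det = A.adjugate i j := by
    rw [adjugate_apply', cramer_apply]
  have h3 : y i = A.adjugate i l := by
    rw [adjugate_apply', hy, cramer_apply, cramer_apply, hA', updateCol_idem]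
  rw [hA', updateCol_mulVec', ← hA', h2, h3] at h1
  have h4 := congrArg (fun v => (A.adjugate *ᵥ v) k) h1
  simp only [mulVec_add, mulVec_smul, mulVec_sub, mulVec_mulVec, adjugate_mul, smul_mulVec,
    one_mulVec, Pi.add_apply, Pi.smul_apply, Pi.sub_apply, smul_eq_mul] at h4
  have h5 : ∀ c, (A.adjugate *ᵥ Pi.single c 1) k = A.adjugate k c := by
    intro c
    rw [mulVec_single_one]
    rfl
  rw [h5, h5, Pi.single_eq_of_ne (Ne.symm hik), mul_zero, sub_zero] at h4
  exact ⟨y k, by linear_combination -h4⟩

end

end Vale.Agent.P287.EvenN
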