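import Vale.Agent.P287.EvenN.LagGen

/-!
The orthogonal complement of an isotropic direct summand, and the right inverse of a matrix with
unimodular minors.
-/

namespace Vale.Agent.P287.EvenN

open Matrix Module Vale.Agent.P287.Odd

section

variable {k : Type} [Field k] {Q : Type} [CommRing Q] [Algebra k Q] [Module.Finite k Q]
  {ι ρ : Type} [Fintype ι] [Fintype ρ] [DecidableEq ι] [DecidableEq ρ]

include k in
/-- If `W` spans a Lagrangian direct summand for `M`, then `ker W` is isotropic for the inverse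
of `M`. -/
theorem iso_ker {M N : Matrix ι ι Q} (hM : M.IsSymm) (hNM : M * N = 1) {W : Matrix ρ ι Q}
    {Z : Matrix ι ρ Q} (hW : W * Z = 1) (hcard : Fintype.card ι = 2 * Fintype.card ρ)
    (hWM : W * M * Wᵀ = 0) (v w : ι → Q) (hv : W *ᵥ v = 0) (hw : W *ᵥ w = 0) :
    PhG N v w = 0 := by
  have hMN : N * M = 1 := mul_eq_one_comm.mp hNM
  set T : (ρ → Q) →ₗ[k] (ι → Q) := (mulVecLin (M * Wᵀ)).restrictScalars k with hT
  have hTa : ∀ y, T y = M *ᵥ (Wᵀ *ᵥ y) := fun y => (mulVec_mulVec _ _ _).symm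
  have hinj : Function.Injective T := by
    refine (injective_iff_map_eq_zero _).mpr fun y hy => ?_
    have h1 : Zᵀ *ᵥ (N *ᵥ T y) = y := by
      rw [hTa, mulVec_mulVec (M := N), hMN, one_mulVec, mulVec_mulVec, ← transpose_mul, hW,
        transpose_one, one_mulVec]
    rw [← h1, hy, mulVec_zero, mulVec_zero]
  have hrange : LinearMap.range T ≤ KI k W ⊤ := by
    rintro _ ⟨y, rfl⟩
    refine ⟨?_, fun i => trivial⟩
    rw [hTa, mulVec_mulVec, mulVec_mulVec, hWM, zero_mulVec]
  have h1 : finrank k (LinearMap.range T) = Fintype.card ρ * finrank k Q := by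
    rw [LinearMap.finrank_range_of_inj hinj, Module.finrank_pi_fintype]
    simp
  have h2 : finrank k (KI k W ⊤) = Fintype.card ρ * finrank k Q := by
    have h4 := finrank_KI (k := k) hW ⊤
    have h5 : finrank k ((⊤ : Ideal Q).restrictScalars k) = finrank k Q := finrank_top k Q
    rw [h5, hcard] at h4
    nlinarith
  have h3 : LinearMap.range T = KI k W ⊤ :=
    Submodule.eq_of_le_of_finrank_eq hrange (by rw [h1, h2])
  have h4 : v ∈ KI k W ⊤ := ⟨hv, fun i => trivial⟩
  rw [← h3] at h4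
  obtain ⟨y, rfl⟩ := h4
  have hsym : ∀ u x, (M *ᵥ u) ⬝ᵥ x = u ⬝ᵥ (M *ᵥ x) := by
    intro u x
    rw [dotProduct_mulVec, ← mulVec_transpose, hM.eq]
  rw [PhG, hTa, hsym, mulVec_mulVec, hNM, one_mulVec, mulVec_transpose, ← dotProduct_mulVec, hw,
    dotProduct_zero]

end

section

variable {Q : Type} [CommRing Q]

/-- The elementary right inverse, up to a minor. -/
def zij (w : Fin 2 → Fin 4 → Q) (i j : Fin 4) : Matrix (Fin 4) (Fin 2) Q :=
  Matrix.of fun l a => (if l = i then ![w 1 j, -w 0 j] a else 0) +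
    (if l = j then ![-w 1 i, w 0 i] a else 0)

lemma mul_zij (w : Fin 2 → Fin 4 → Q) (i j : Fin 4) :
    (Matrix.of w : Matrix (Fin 2) (Fin 4) Q) * zij w i j = (w 0 i * w 1 j - w 0 j * w 1 i) • 1 := by
  have h1 : ∀ a b, ((Matrix.of w : Matrix (Fin 2) (Fin 4) Q) * zij w i j) a b =
      w a i * ![w 1 j, -w 0 j] b + w a j * ![-w 1 i, w 0 i] b := by
    intro a b
    rw [Matrix.mul_apply]
    simp only [Matrix.of_apply, zij, mul_add, Finset.sum_add_distrib, mul_ite, mul_zero,
      Finset.sum_ite_eq', Finset.mem_univ, if_true]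
  ext a b
  rw [h1, Matrix.smul_apply, smul_eq_mul]
  fin_cases a <;> fin_cases b <;> simp <;> ring

/-- A matrix with unimodular minors has a right inverse. -/
theorem exists_right_inv (w : Fin 2 → Fin 4 → Q)
    (h : Ideal.span (Set.range fun ij : Fin 4 × Fin 4 =>
      w 0 ij.1 * w 1 ij.2 - w 0 ij.2 * w 1 ij.1) = ⊤) :
    ∃ Z : Matrix (Fin 4) (Fin 2) Q, (Matrix.of w : Matrix (Fin 2) (Fin 4) Q) * Z = 1 := by
  have h1 := (Ideal.eq_top_iff_one _).mp h
  rw [Ideal.mem_span_range_iff_exists_fun] at h1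
  obtain ⟨c, hc⟩ := h1
  refine ⟨∑ ij, c ij • zij w ij.1 ij.2, ?_⟩
  rw [Matrix.mul_sum]
  simp only [Matrix.mul_smul, mul_zij, smul_smul]
  rw [← Finset.sum_smul, hc, one_smul]

end

end Vale.Agent.P287.EvenN
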