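import Vale.Agent.P287.EvenN.Spec
import Vale.Agent.P287.EvenN.LagIso
import Vale.Agent.P287.EvenN.AdjMinor
import Vale.Agent.P287.Odd.Mumford

/-!
The Mumford block for the fibration itself: the parity of `dim (X ∩ M')`.
-/

namespace Vale.Agent.P287.EvenN

open Polynomial Matrix Module Vale.Agent.P287.Odd

section

variable {k : Type} [Field k]

lemma wt0_le (i : Fin 4) : wt0 i ≤ 1 := by
  fin_cases i <;> decide

lemma mem_Yd4 {n d : ℕ} {Y : Submodule k[X][X] (Fin 4 → k[X][X])} {v : Fin 4 → k[X][X]} :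
    v ∈ Yd4 n d Y ↔ v ∈ Y ∧ ∀ i, v i ∈ (En n (d + wt0 i) : Submodule k k[X][X]) := by
  rw [Yd4, Submodule.mem_inf, Submodule.restrictScalars_mem, Submodule.mem_pi]
  simp

lemma Yd4_wd {n d : ℕ} {Y : Submodule k[X][X] (Fin 4 → k[X][X])} {v : Fin 4 → k[X][X]}
    (hv : v ∈ Yd4 n d Y) (i : Fin 4) : Wd (d + wt0 i) (v i) := ((mem_Yd4.mp hv).2 i).1

lemma Yd4_wd' {n d : ℕ} {Y : Submodule k[X][X] (Fin 4 → k[X][X])} {v : Fin 4 → k[X][X]}
    (hv : v ∈ Yd4 n d Y) (i : Fin 4) : Wd (d + 1) (v i) :=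
  Wd_mono (Yd4_wd hv i) (by have := wt0_le i; omega)

lemma Wd_dotG {ι : Type} [Fintype ι] {s : ℕ} {v w : ι → k[X][X]}
    (h : ∀ i, Wd s (v i * w i)) : Wd s (v ⬝ᵥ w) :=
  Wd_sum _ _ fun i _ => h i

lemma Wd_det3 {r c : Fin 3 → ℕ} {B : Matrix (Fin 3) (Fin 3) k[X][X]}
    (hB : ∀ i j, Wd (1 + r i + c j) (B i j)) {s : ℕ}
    (hs : 3 + (r 0 + r 1 + r 2) + (c 0 + c 1 + c 2) ≤ s) : Wd s B.det := by
  rw [det_fin_three]
  have h1 : ∀ i j l, ∀ i' j' l', r i + r i' + (r l) + (c j + c j' + c l') ≤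
      (r 0 + r 1 + r 2) + (c 0 + c 1 + c 2) → Wd s (B i j * B i' j' * B l l') := by
    intro i j l i' j' l' h
    exact Wd_mul_le (Wd_mul (hB i j) (hB i' j')) (hB l l') (by omega)
  refine Wd_sub (Wd_add (Wd_add (Wd_sub (Wd_sub ?_ ?_) ?_) ?_) ?_) ?_
  all_goals exact h1 _ _ _ _ _ _ (by omega)

lemma Wd_adj4 {M : Matrix (Fin 4) (Fin 4) k[X][X]} (hM : ∀ i j, Wd (1 + wt0 i + wt0 j) (M i j))
    (i j : Fin 4) : Wd (5 - wt0 i - wt0 j) (M.adjugate i j) := by
  rw [adjugate_fin_succ_eq_det_submatrix]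
  have h1 : Wd (5 - wt0 i - wt0 j) (M.submatrix j.succAbove i.succAbove).det := by
    refine Wd_det3 (r := fun a => wt0 (j.succAbove a)) (c := fun a => wt0 (i.succAbove a))
      (fun a b => hM _ _) ?_
    fin_cases i <;> fin_cases j <;> decide
  rcases neg_one_pow_eq_or k[X][X] ((j : ℕ) + (i : ℕ)) with h | h
  · rw [h, one_mul]
    exact h1
  · rw [h, neg_one_mul]
    exact Wd_iff.mpr (Wd_iff.mp h1).neg

lemma J_sat4 {n : ℕ} {g f : k[X][X]} {J : Ideal k[X][X]} (hC : CurveN n g f)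
    (hJ : HalfN n g f J) (e : ℕ) (c : k[X][X]) (h : (C X : k[X][X]) ^ e * c ∈ J) : c ∈ J := by
  obtain ⟨α, β, γ, h1⟩ := hC.line
  induction e with
  | zero => rwa [pow_zero, one_mul] at h
  | succ e ih =>
    apply ih
    have h2 : (C X : k[X][X]) ^ e * c = (α * ((C X : k[X][X]) ^ e * c)) * f +
        (β * ((C X : k[X][X]) ^ e * c)) * g + γ * ((C X : k[X][X]) ^ (e + 1) * c) := by
      rw [pow_succ]
      linear_combination (-((C X : k[X][X]) ^ e * c)) * h1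
    rw [h2]
    exact J.add_mem (J.add_mem (J.mul_mem_left _ hJ.f_mem) (J.mul_mem_left _ hJ.g_mem))
      (J.mul_mem_left _ h)

lemma mulp_mem4 {n d : ℕ} {g f : k[X][X]} {M : Matrix (Fin 4) (Fin 4) k[X][X]}
    {J : Ideal k[X][X]} (hC : CurveN n g f) (hJ : HalfN n g f J) (e : ℕ) (v : Fin 4 → k[X][X]) :
    mulp k e v ∈ Yd4 n (d + e) (modX4 M J) ↔ v ∈ Yd4 n d (modX4 M J) := by
  rw [mem_Yd4, mem_Yd4]
  have h1 : mulp k e v ∈ modX4 M J ↔ v ∈ modX4 M J := by
    constructor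
    · intro h3 i
      refine J_sat4 hC hJ e _ ?_
      have h4 := h3 i
      rw [mulp_eq, mulVec_smul] at h4
      exact h4
    · intro h2
      rw [mulp_eq]
      exact Submodule.smul_mem _ _ h2
  rw [h1]
  refine and_congr_right fun _ => forall_congr' fun i => ?_
  have h2 : d + e + wt0 i = d + wt0 i + e := by omega
  rw [h2]
  exact mem_En_pow_mul

/-- The polar form takes values in `(f, g)` on `X`. -/
lemma dot_mem4 {R : Type} [CommRing R] {M : Matrix (Fin 4) (Fin 4) R} (hM : M.IsSymm)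
    {I : Ideal R} (hdet : M.det ∈ I)
    (hr : Ideal.span (Set.range fun ij : Fin 4 × Fin 4 => M.adjugate ij.1 ij.2) ⊔ I = ⊤)
    (a a' : Fin 4 → R) (h : ∀ i j, (M.adjugate *ᵥ a) i * (M.adjugate *ᵥ a') j ∈ I) :
    a ⬝ᵥ (M.adjugate *ᵥ a') ∈ I := by
  set N := M.adjugate with hN
  set t := a ⬝ᵥ (N *ᵥ a') with ht
  have hNs : ∀ i j, N i j = N j i := fun i j => (hM.adjugate).apply j i
  have h1 : ∀ r l, N r l * t ∈ I := by
    intro r l
    have h2 : ∀ i j, N l r * N i j - N l j * N i r ∈ I := by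
      intro i j
      obtain ⟨q, hq⟩ := adj_minor M l r i j
      rw [hN, hq]
      exact I.mul_mem_right _ hdet
    have h3 : N r l * t = (N *ᵥ a) r * (N *ᵥ a') l +
        ∑ i, ∑ j, a i * a' j * (N l r * N i j - N l j * N i r) := by
      rw [ht]
      simp only [mulVec, dotProduct, Fin.sum_univ_four]
      rw [hNs 0 r, hNs 1 r, hNs 2 r, hNs 3 r, hNs l r]
      ring
    rw [h3]
    exact I.add_mem (h r l) (I.sum_mem fun i _ => I.sum_mem fun j _ => I.mul_mem_left _ (h2 i j))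
  have h4 : (⊤ : Ideal R) ≤ Submodule.comap (LinearMap.mulRight R t) I := by
    rw [← hr]
    refine sup_le ?_ ?_
    · rw [Ideal.span_le]
      rintro _ ⟨ij, rfl⟩
      exact h1 ij.1 ij.2
    · intro r hr'
      exact I.mul_mem_right _ hr'
  have h5 : (1 : R) ∈ Submodule.comap (LinearMap.mulRight R t) I := h4 trivial
  rw [Submodule.mem_comap, LinearMap.mulRight_apply, one_mul] at h5
  exact h5

lemma Ph_mem4 {n : ℕ} {g f : k[X][X]} {M : Matrix (Fin 4) (Fin 4) k[X][X]}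
    {J : Ideal k[X][X]} (hJ : HalfN n g f J) (hQ : Quad4 g f M) {v w : Fin 4 → k[X][X]}
    (hv : v ∈ modX4 M J) (hw : w ∈ modX4 M J) :
    v ⬝ᵥ (M.adjugate *ᵥ w) ∈ Ideal.span {f, g} := by
  refine dot_mem4 hQ.symm ?_ hQ.rank _ _ fun i j => hJ.mul_mem _ (hv i) _ (hw j)
  rw [hQ.det]
  exact Ideal.subset_span (by simp)

lemma Ph_wd4 {g f : k[X][X]} {M : Matrix (Fin 4) (Fin 4) k[X][X]}
    (hQ : Quad4 g f M) {K : ℕ} {v w : Fin 4 → k[X][X]}
    (hv : ∀ i, Wd (K + wt0 i) (v i)) (hw : ∀ i, Wd (K + wt0 i) (w i)) :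
    Wd (2 * K + 5) (v ⬝ᵥ (M.adjugate *ᵥ w)) := by
  refine Wd_dotG fun i => ?_
  have h1 := wt0_le i
  refine Wd_mul_le (hv i) (e := K + 5 - wt0 i) ?_ (by omega)
  change Wd _ (∑ j, M.adjugate i j * w j)
  refine Wd_sum _ _ fun j _ => ?_
  have h2 := wt0_le j
  exact Wd_mul_le (Wd_adj4 hQ.wd i j) (hw j) (by omega)

section quot

variable {Q : Type} [CommRing Q] [Algebra k Q] {π : k[X][X] →ₐ[k] Q} {g : k[X][X]} {N : ℕ}
  (hπ : ∀ P, π P = 0 ↔ (C X : k[X][X]) ^ N ∣ P %ₘ g)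

include hπ

lemma prL_inj4 {n d : ℕ} (hg : g.Monic) (hn : g.natDegree = n) (hd : d + 1 < N)
    {Y : Submodule k[X][X] (Fin 4 → k[X][X])} {v : Fin 4 → k[X][X]}
    (hv : v ∈ Yd4 n d Y) (h0 : prL π v = 0) : v = 0 := by
  funext i
  have h1 : π (v i) = 0 := congrFun h0 i
  rw [hπ, mod_eq_self hg hn ((mem_Yd4.mp hv).2 i).2] at h1
  exact eq_zero_of_CX_pow_dvd (Yd4_wd' hv i) hd h1

lemma finrank_map_prL4 {n d : ℕ} (hg : g.Monic) (hn : g.natDegree = n)
    (hd : d + 1 < N) {Y : Submodule k[X][X] (Fin 4 → k[X][X])}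
    {W : Submodule k (Fin 4 → k[X][X])} (hW : W ≤ Yd4 n d Y) :
    finrank k (W.map (prL π)) = finrank k W := by
  have h2 : Function.Injective ((prL π).domRestrict W) := by
    rw [injective_iff_map_eq_zero]
    rintro ⟨v, hv⟩ h0
    exact Subtype.ext (prL_inj4 hπ hg hn hd (hW hv) h0)
  have h3 := (LinearEquiv.ofInjective _ h2).finrank_eq
  rw [LinearMap.range_domRestrict] at h3
  exact h3.symm

end quot

lemma exists_Wd (P : k[X][X]) : ∃ D, Wd D P := by
  refine ⟨P.natDegree + P.support.sup (fun j => (P.coeff j).natDegree), fun i j hij => ?_⟩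
  by_cases hj : j ∈ P.support
  · have h1 : j ≤ P.natDegree := le_natDegree_of_mem_supp j hj
    have h2 : (P.coeff j).natDegree ≤ P.support.sup (fun j => (P.coeff j).natDegree) :=
      Finset.le_sup (f := fun j => (P.coeff j).natDegree) hj
    exact coeff_eq_zero_of_natDegree_lt (by omega)
  · rw [notMem_support_iff.mp hj, coeff_zero]

end

section maps

variable {R S : Type} [CommRing R] [CommRing S] (φ : R →+* S) {ι : Type} [Fintype ι]

lemma map_dotG (v w : ι → R) : φ (v ⬝ᵥ w) = (fun i => φ (v i)) ⬝ᵥ (fun i => φ (w i)) := by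
  simp only [dotProduct, map_sum, map_mul]

lemma map_mulvG (A : Matrix ι ι R) (v : ι → R) :
    (fun i => φ ((A *ᵥ v) i)) = (A.map φ) *ᵥ (fun i => φ (v i)) := by
  funext i
  simp only [mulVec, dotProduct, map_sum, map_mul, map_apply]

lemma map_adjG [DecidableEq ι] (A : Matrix ι ι R) : (A.map φ).adjugate = A.adjugate.map φ := by
  have h := RingHom.map_adjugate φ A
  rw [RingHom.mapMatrix_apply, RingHom.mapMatrix_apply] at h
  exact h.symm

lemma map_detG [DecidableEq ι] (A : Matrix ι ι R) : (A.map φ).det = φ A.det := by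
  have h := RingHom.map_det φ A
  rw [RingHom.mapMatrix_apply] at h
  exact h.symm

end maps

/-- [ME], from [CE] -/
theorem stmtME (hCE : StmtCE) : StmtME := by
  intro k _ _ r hr g f M J w hC hJ hQ hW
  have hg := hC.monic
  have hn := hC.deg
  -- a bound for the degrees
  obtain ⟨D, hD⟩ : ∃ D, ∀ a i, Wd D (w a i) := by
    choose D hD using fun a i => exists_Wd (w a i)
    refine ⟨∑ a, ∑ i, D a i, fun a i => Wd_mono (hD a i) ?_⟩
    exact (Finset.single_le_sum (f := fun i => D a i) (fun _ _ => Nat.zero_le _)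
      (Finset.mem_univ i)).trans (Finset.single_le_sum (f := fun a => ∑ i, D a i)
        (fun _ _ => Nat.zero_le _) (Finset.mem_univ a))
  refine ⟨r + 4 + D, fun e he => ?_⟩
  set K := r - 1 + e with hK
  obtain ⟨Q, _, _, π, lam, hfin, hdimQ, hπ, hsurj, hlam1, hlam2⟩ :=
    exists_Q g hC.monic (2 * r) (2 * e) hC.deg (by omega) (by omega)
  -- the inverse of `f`
  obtain ⟨α, β, γ, hline⟩ := hC.line
  obtain ⟨f', hf'⟩ := unit_of_line hπ hg hline
  set M' : Matrix (Fin 4) (Fin 4) Q := M.map (π : k[X][X] →+* Q) with hM'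
  have hMs : M'.IsSymm := hQ.symm.map _
  have hdet : M'.det = π f := by
    rw [hM', map_detG, hQ.det]
    rfl
  set N : Matrix (Fin 4) (Fin 4) Q := f' • M'.adjugate with hN
  have hMN : M' * N = 1 := by
    rw [hN, Matrix.mul_smul, mul_adjugate, hdet, smul_smul, mul_comm, hf', one_smul]
  have hNs : N.IsSymm := by
    have h1 : M'.adjugate.IsSymm := hMs.adjugate
    rw [hN, Matrix.IsSymm, transpose_smul, h1.eq]
  -- the plane
  set W : Matrix (Fin 2) (Fin 4) Q := Matrix.of fun a i => π (w a i) with hWd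
  obtain ⟨Z, hZ⟩ : ∃ Z : Matrix (Fin 4) (Fin 2) Q, W * Z = 1 := by
    apply exists_right_inv (fun a i => π (w a i))
    obtain ⟨y, hy, t, ht, hyt⟩ := Submodule.mem_sup.mp
      ((Ideal.eq_top_iff_one _).mp hW.line)
    obtain ⟨a, b, hab⟩ := Ideal.mem_span_pair.mp ht
    have h1 : IsNilpotent (π (b * C X)) := by
      refine ⟨2 * e, ?_⟩
      rw [← map_pow, mul_pow, mul_comm, pi_pow hπ]
    have h2 : π y = 1 - π (b * C X) := by
      have h3 : y = 1 - b * C X - a * g := by linear_combination hyt + hab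
      rw [h3, map_sub, pi_g hπ hg, sub_zero, map_sub, map_one]
    have h3 : IsUnit (π y) := by
      rw [h2]
      exact h1.isUnit_one_sub
    refine Ideal.eq_top_of_isUnit_mem _ ?_ h3
    have h4 := Ideal.mem_map_of_mem (π : k[X][X] →+* Q) hy
    rw [Ideal.map_span, ← Set.range_comp] at h4
    have h5 : ((π : k[X][X] →+* Q) ∘ fun ij : Fin 4 × Fin 4 => mnr2 w ij.1 ij.2) =
        fun ij : Fin 4 × Fin 4 => π (w 0 ij.1) * π (w 1 ij.2) - π (w 0 ij.2) * π (w 1 ij.1) := by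
      funext ij
      change π (mnr2 w ij.1 ij.2) = _
      rw [mnr2, map_sub, map_mul, map_mul]
    rw [h5] at h4
    exact h4
  have hWM : W * M' * Wᵀ = 0 := by
    ext a b
    have h1 := map_dotG (π : k[X][X] →+* Q) (w a) (M *ᵥ w b)
    rw [map_mulvG] at h1
    have h2 : (W * M' * Wᵀ) a b = π (w a ⬝ᵥ (M *ᵥ w b)) := by
      have h3 : π (w a ⬝ᵥ (M *ᵥ w b)) = (fun i => π (w a i)) ⬝ᵥ (M' *ᵥ fun i => π (w b i)) := h1
      rw [h3, Matrix.mul_assoc, Matrix.mul_apply]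
      rfl
    rw [h2, pi_dvd hπ hg (hW.iso a b)]
    rfl
  have hiso := iso_ker (k := k) hMs hMN hZ (by simp) hWM
  -- the nilpotent
  set P : Q := π ((C X : k[X][X]) ^ e) with hP
  have h0 : (C X : k[X][X]) ^ e ≠ 0 := pow_ne_zero _ (by simp)
  have hP1 : ∀ w : Q, P * w = 0 → ∃ w', w = P * w' := by
    intro w hw
    obtain ⟨b, rfl⟩ := hsurj w
    rw [hP, ← map_mul, hπ, mod_pow_mul, two_mul, pow_add] at hw
    obtain ⟨b', hb'⟩ := (mul_dvd_mul_iff_left h0).mp hw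
    refine ⟨π b', ?_⟩
    rw [hP, ← map_mul, ← hb', pi_mod hπ hg]
  have hPP : P * P = 0 := by
    rw [hP, ← map_mul, ← pow_add, ← two_mul]
    have := pi_pow hπ 1
    rwa [mul_one] at this
  -- the third Lagrangian
  have hd : K + 1 < 2 * e := by omega
  have e3 := finrank_map_prL4 hπ hg hn hd (le_refl (Yd4 (2 * r) K (modX4 M J)))
  have h33 : ∀ v ∈ (Yd4 (2 * r) K (modX4 M J)).map (prL π),
      ∀ w ∈ (Yd4 (2 * r) K (modX4 M J)).map (prL π), lam (PhG N v w) = 0 := by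
    rintro _ ⟨v, hv, rfl⟩ _ ⟨w, hw, rfl⟩
    have h1 : PhG N (prL π v) (prL π w) = f' * π (v ⬝ᵥ (M.adjugate *ᵥ w)) := by
      have h2 := map_dotG (π : k[X][X] →+* Q) v (M.adjugate *ᵥ w)
      rw [map_mulvG, ← map_adjG] at h2
      have h3 : π (v ⬝ᵥ (M.adjugate *ᵥ w)) = (prL π v) ⬝ᵥ (M'.adjugate *ᵥ (prL π w)) := h2
      rw [h3, PhG, hN, smul_mulVec, dotProduct_smul, smul_eq_mul]
    obtain ⟨a, b, hab⟩ := Ideal.mem_span_pair.mp (Ph_mem4 hJ hQ (mem_Yd4.mp hv).1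
      (mem_Yd4.mp hw).1)
    have hwd := Ph_wd4 hQ (Yd4_wd hv) (Yd4_wd hw)
    have h2 : Wd (2 * K - 1) (a %ₘ g) := by
      refine hC.inf.2 (2 * K - 1) (a %ₘ g) (fun j hj => coeff_mod hg hn hj) ?_
      have h3 : (f * (a %ₘ g)) %ₘ g = (v ⬝ᵥ (M.adjugate *ᵥ w)) %ₘ g := by
        rw [← sub_eq_zero, ← sub_modByMonic, modByMonic_eq_zero_iff_dvd hg]
        refine ⟨-(f * (a /ₘ g)) - b, ?_⟩
        have h4 := modByMonic_add_div a g
        linear_combination hab + f * h4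
      rw [h3]
      exact Wd_mono (Wd_mod hg hn hC.wd hwd) (by omega)
    have h5 : PhG N (prL π v) (prL π w) = π (a %ₘ g) := by
      rw [h1, ← hab, map_add, pi_g hπ hg, add_zero, map_mul, pi_mod hπ hg]
      linear_combination (π a) * hf'
    rw [h5, hlam1, mod_eq_self hg hn (fun j hj => coeff_mod hg hn hj)]
    exact h2 _ _ (by omega)
  have hdim : 2 * finrank k Q ≤ finrank k ((Yd4 (2 * r) K (modX4 M J)).map (prL π)) := by
    rw [e3, hdimQ]
    have h1 := hCE k (2 * r) g f M J hJ hQ K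
    have h2 := two_mul_finrank_En (k := k) (n := 2 * r) (d := K + 1) (by omega)
    have h3 := two_mul_finrank_En (k := k) (n := 2 * r) (d := K) (by omega)
    obtain ⟨r', rfl⟩ : ∃ r', r = r' + 1 := ⟨r - 1, by omega⟩
    have hK' : K = r' + e := by omega
    rw [hK'] at h1 h2 h3 ⊢
    nlinarith
  obtain ⟨hfin3, hpar⟩ := parityG (k := k) two_ne_zero lam hlam2 hNs
    (mul_eq_one_comm.mp hMN) hZ (by simp) hiso hP1 hPP _ h33 (by simpa using hdim)
  -- the intersection with the second Lagrangian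
  have hI2 : (KI k W ⊤ ⊓ (Yd4 (2 * r) K (modX4 M J)).map (prL π) :
      Submodule k (Fin 4 → Q)) = (Yd4 (2 * r) K (modX4 M J ⊓ modW g w)).map (prL π) := by
    have hWv : ∀ v : Fin 4 → k[X][X], W *ᵥ (prL π v) = 0 ↔ ∀ a, π (w a ⬝ᵥ v) = 0 := by
      intro v
      rw [funext_iff]
      refine forall_congr' fun a => ?_
      have h2 := map_dotG (π : k[X][X] →+* Q) (w a) v
      have h3 : π (w a ⬝ᵥ v) = (W *ᵥ (prL π v)) a := h2
      rw [h3]
      rfl
    ext y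
    constructor
    · rintro ⟨h1, v, hv, rfl⟩
      refine ⟨v, ?_, rfl⟩
      have h3 := (hWv v).mp h1.1
      have w1 := Yd4_wd' hv
      rw [SetLike.mem_coe, mem_Yd4] at hv ⊢
      refine ⟨⟨hv.1, fun a => ?_⟩, hv.2⟩
      exact pi_inj hπ hg hn hC.wd (d := D + (K + 1)) (by omega)
        (Wd_dotG fun i => Wd_mul (hD a i) (w1 i)) (h3 a)
    · rintro ⟨v, hv, rfl⟩
      rw [SetLike.mem_coe, mem_Yd4] at hv
      obtain ⟨⟨hv1, hv2⟩, hv4⟩ := hv
      exact ⟨⟨(hWv v).mpr fun a => pi_dvd hπ hg (hv2 a), fun i => trivial⟩, v,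
        mem_Yd4.mpr ⟨hv1, hv4⟩, rfl⟩
  -- the intersection with the first Lagrangian
  have hI1 : (L1G k (Fin 4) P ⊓ (Yd4 (2 * r) K (modX4 M J)).map (prL π) :
      Submodule k (Fin 4 → Q)) =
      ((Yd4 (2 * r) (r - 1) (modX4 M J)).map (mulp k e)).map (prL π) := by
    ext y
    rw [Submodule.mem_inf, mem_L1G]
    constructor
    · rintro ⟨h1, v, hv, rfl⟩
      have h2 : ∀ i, ∃ v', v i = (C X : k[X][X]) ^ e * v' := by
        intro i
        have h3 : π ((C X : k[X][X]) ^ e * v i) = 0 := by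
          rw [map_mul]
          exact h1 i
        rw [hπ, mod_pow_mul, mod_eq_self hg hn ((mem_Yd4.mp hv).2 i).2, two_mul, pow_add] at h3
        obtain ⟨b', hb'⟩ := (mul_dvd_mul_iff_left h0).mp h3
        exact ⟨b', hb'⟩
      choose v' hv' using h2
      have h3 : v = mulp k e v' := funext hv'
      refine ⟨v, ⟨v', ?_, h3.symm⟩, rfl⟩
      rw [h3] at hv
      exact (mulp_mem4 hC hJ e v').mp hv
    · rintro ⟨_, ⟨v', hv', rfl⟩, rfl⟩
      refine ⟨fun i => ?_, mulp k e v', (mulp_mem4 hC hJ e v').mpr hv', rfl⟩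
      change P * π ((C X : k[X][X]) ^ e * v' i) = 0
      rw [map_mul, ← mul_assoc, ← hP, hPP, zero_mul]
  rw [hI2, hI1, finrank_map_prL4 hπ hg hn hd
    (Y := modX4 M J ⊓ modW g w) le_rfl, finrank_map_prL4 hπ hg hn hd (Y := modX4 M J)] at hpar
  · have h1 : finrank k ((Yd4 (2 * r) (r - 1) (modX4 M J)).map (mulp k e)) =
        finrank k (Yd4 (2 * r) (r - 1) (modX4 M J)) :=
      ((Yd4 (2 * r) (r - 1) (modX4 M J)).equivMapOfInjective _ (mulp_inj e)).finrank_eq.symm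
    rw [h1, Fintype.card_fin] at hpar
    obtain ⟨c, hc⟩ := hpar
    refine ⟨c - finrank k ((annI P).restrictScalars k), ?_⟩
    omega
  · rintro _ ⟨v', hv', rfl⟩
    exact (mulp_mem4 hC hJ e v').mpr hv'

end Vale.Agent.P287.EvenN
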