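import Vale.Agent.P287.EvenN.Spec
import Vale.Agent.P287.Theta.Main

/-!
Scrolls of lines over plane curves of even degree, the numerical form: the remaining literal
statements and the space of forms which contain the scroll.
-/

namespace Vale.Agent.P287.EvenN

open Polynomial Matrix Module Vale.Agent.P287 Vale.Agent.P287.Theta Vale.Agent.P287.Odd

/-- The forms `∑ v i y i` which vanish on the scroll spanned by `w 0, w 1` over the curve `g = 0`,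
with `v i` of degree `d + wt0 i`. -/
noncomputable def Phi (g : R3) (w : Fin 2 → Fin 4 → R3) (d : ℕ) : Submodule ℂ (Fin 4 → R3) where
  carrier := {v | (∀ i, (v i).IsHomogeneous (d + wt0 i)) ∧ ∀ a, g ∣ w a ⬝ᵥ v}
  add_mem' := by
    rintro v v' ⟨h1, h2⟩ ⟨h1', h2'⟩
    refine ⟨fun i => (h1 i).add (h1' i), fun a => ?_⟩
    rw [dotProduct_add]
    exact dvd_add (h2 a) (h2' a)
  zero_mem' := ⟨fun i => MvPolynomial.isHomogeneous_zero _ _ _, fun a => by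
    rw [dotProduct_zero]
    exact dvd_zero _⟩
  smul_mem' := by
    rintro c v ⟨h1, h2⟩
    refine ⟨fun i => ?_, fun a => ?_⟩
    · rw [Pi.smul_apply, MvPolynomial.smul_eq_C_mul]
      exact (h1 i).C_mul c
    · rw [dotProduct_smul, MvPolynomial.smul_eq_C_mul]
      exact (h2 a).mul_left _

/-- The theta characteristic has exactly one section (`δ = M.adjugate 0 0`). -/
def OneSec (M : Matrix (Fin 4) (Fin 4) R3) (g : R3) (r : ℕ) : Prop :=
  ∃ b₀ : R3, (b₀.IsHomogeneous (r + 3) ∧ b₀ ^ 2 ∈ Ideal.span {M.adjugate 0 0 * g, M.det}) ∧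
    ¬ M.det ∣ b₀ ∧ ∀ b : R3, b.IsHomogeneous (r + 3) ∧
      b ^ 2 ∈ Ideal.span {M.adjugate 0 0 * g, M.det} →
        ∃ c : ℂ, M.det ∣ b - MvPolynomial.C c * b₀

/-- [FE] The forms containing the scroll, in the affine chart. -/
def StmtFE : Prop := ∀ (n : ℕ) (g : R3) (w : Fin 2 → Fin 4 → R3) (e : Fin 2 → ℕ)
  (T S : Matrix (Fin 3) (Fin 3) ℂ) (u : ℂ), 2 ≤ n → g.IsHomogeneous n → Irreducible g →
  (∀ a i, (w a i).IsHomogeneous (e a + 1 - wt0 i)) → T * S = 1 → u ≠ 0 →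
  (C (C u) * dh (sb T g)).Monic → (C (C u) * dh (sb T g)).natDegree = n →
  Wd n (C (C u) * dh (sb T g)) → ∀ d, n ≤ d →
  finrank ℂ (Phi g w d) =
    finrank ℂ (Yd4 n d (modW (C (C u) * dh (sb T g)) fun a i => dh (sb T (w a i)))) +
      3 * (d - n + 2).choose 2 + (d - n + 3).choose 2

/-- [DE] The dimension of `X_{r-1}`. -/
def StmtDE : Prop := ∀ (M : Matrix (Fin 4) (Fin 4) R3) (g : R3) (r : ℕ)
  (T S : Matrix (Fin 3) (Fin 3) ℂ) (u : ℂ) (J : Ideal ℂ[X][X]), FibShape M →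
  SmoothTernary M.det → M.adjugate 0 0 ≠ 0 → 1 ≤ r → g.IsHomogeneous (2 * r) →
  Irreducible g → ¬ g ∣ M.det → T * S = 1 → u ≠ 0 →
  CurveN (2 * r) (C (C u) * dh (sb T g)) (dh (sb T M.det)) →
  Quad4 (C (C u) * dh (sb T g)) (dh (sb T M.det)) (M.map fun P => dh (sb T P)) →
  HalfN (2 * r) (C (C u) * dh (sb T g)) (dh (sb T M.det)) J →
  (∀ c, c ∈ J ↔ c ^ 2 ∈ Ideal.span {dh (sb T M.det), C (C u) * dh (sb T g)}) →
  OneSec M g r →
  finrank ℂ (Yd4 (2 * r) (r - 1) (modX4 (M.map fun P => dh (sb T P)) J)) =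
    1 + 3 * r.choose 2 + (r - 1).choose 2

/-- [HE] The ideal `J`. -/
def StmtHE : Prop := ∀ (n : ℕ) (g f : ℂ[X][X]), 2 ≤ n → CurveN n g f → Prime f →
  (∀ x y : ℂ, evalEval x y f = 0 →
    f ∉ (Ideal.span {C (X - C x), X - C (C y)} : Ideal ℂ[X][X]) ^ 2) →
  (∃ s c : ℂ[X][X], ¬ g ∣ c ∧ g ∣ c ^ 2 * f - s ^ 2) →
  ∃ J : Ideal ℂ[X][X], (∀ c, c ∈ J ↔ c ^ 2 ∈ Ideal.span {f, g}) ∧ HalfN n g f J

end Vale.Agent.P287.EvenN
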