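import Vale.Agent.P287.Odd.Spec

/-!
Scrolls of lines over plane curves of even degree `n = 2 r`, the numerical form: definitions and
literal statements over a field `k`. Same coordinates as in `Odd.Spec`: `p = C X`, `q = X`, the
curve `g = 0` is monic of degree `n` in `q`; `M` is the symmetric matrix of the fibration with
entries `M i j` of degree `1 + wt0 i + wt0 j`, and `f = det M`.
-/

namespace Vale.Agent.P287.EvenN

open Polynomial Matrix Module Vale.Agent.P287.Odd

section defs

variable {R : Type} [CommRing R]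

/-- The module `X`: the vectors `v` with `adj(M) v ∈ J⁴`. -/
def modX4 (M : Matrix (Fin 4) (Fin 4) R) (J : Ideal R) : Submodule R (Fin 4 → R) where
  carrier := {v | ∀ i, (M.adjugate *ᵥ v) i ∈ J}
  add_mem' := fun {v w} hv hw i => by
    rw [mulVec_add]
    exact J.add_mem (hv i) (hw i)
  zero_mem' := fun i => by
    rw [mulVec_zero]
    exact J.zero_mem
  smul_mem' := fun c v hv i => by
    rw [mulVec_smul]
    exact J.mul_mem_left c (hv i)

/-- The module `M'`: the linear forms `v` which vanish, modulo `g`, on the plane spanned by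
`w 0, w 1`. -/
def modW (g : R) (w : Fin 2 → Fin 4 → R) : Submodule R (Fin 4 → R) where
  carrier := {v | ∀ a, g ∣ w a ⬝ᵥ v}
  add_mem' := fun {v v'} hv hv' a => by
    rw [dotProduct_add]
    exact dvd_add (hv a) (hv' a)
  zero_mem' := fun a => by
    rw [dotProduct_zero]
    exact dvd_zero _
  smul_mem' := fun c v hv a => by
    rw [dotProduct_smul]
    exact (hv a).mul_left c

/-- The minors of order two of the matrix with rows `w 0, w 1`. -/
def mnr2 (w : Fin 2 → Fin 4 → R) (i j : Fin 4) : R := w 0 i * w 1 j - w 0 j * w 1 i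

end defs

/-- The weights of the coordinates. -/
def wt0 : Fin 4 → ℕ := ![1, 0, 0, 0]

section field

variable {k : Type} [Field k]

/-- The reduced vectors of degree at most `d` of a module. -/
noncomputable def Yd4 (n d : ℕ) (Y : Submodule k[X][X] (Fin 4 → k[X][X])) :
    Submodule k (Fin 4 → k[X][X]) :=
  Y.restrictScalars k ⊓ Submodule.pi Set.univ (fun i => En n (d + wt0 i))

/-- The curve `g = 0` of degree `n` and the sextic `f = 0` in good coordinates. -/
structure CurveN (n : ℕ) (g f : k[X][X]) : Prop where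
  monic : g.Monic
  deg : g.natDegree = n
  wd : Wd n g
  prime : Prime g
  ndvd : ¬ g ∣ f
  /-- `f` does not vanish at the points at infinity of the curve -/
  inf : InfUnit n g 6 f
  /-- the line `p = 0` does not meet `f = g = 0` -/
  line : ∃ α β γ : k[X][X], α * f + β * g + γ * C X = 1

/-- The ideal `{c : c² ∈ (f, g)}`. -/
structure HalfN (n : ℕ) (g f : k[X][X]) (J : Ideal k[X][X]) : Prop where
  f_mem : f ∈ J
  g_mem : g ∈ J
  mul_mem : ∀ a ∈ J, ∀ b ∈ J, a * b ∈ Ideal.span {f, g}
  fin : Module.Finite k (k[X][X] ⧸ J)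
  dim : finrank k (k[X][X] ⧸ J) ≤ 3 * n

/-- The symmetric matrix of the fibration. -/
structure Quad4 (g f : k[X][X]) (M : Matrix (Fin 4) (Fin 4) k[X][X]) : Prop where
  symm : M.IsSymm
  wd : ∀ i j, Wd (1 + wt0 i + wt0 j) (M i j)
  det : M.det = f
  /-- `M` has rank three at the points `f = g = 0` -/
  rank : Ideal.span (Set.range fun ij : Fin 4 × Fin 4 => M.adjugate ij.1 ij.2) ⊔
    Ideal.span {f, g} = ⊤

/-- An isotropic plane on the curve, spanned by `w 0, w 1`, which are independent on the line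
`p = 0`. -/
structure Plane (g : k[X][X]) (M : Matrix (Fin 4) (Fin 4) k[X][X])
    (w : Fin 2 → Fin 4 → k[X][X]) : Prop where
  iso : ∀ a b, g ∣ w a ⬝ᵥ (M *ᵥ w b)
  line : Ideal.span (Set.range fun ij : Fin 4 × Fin 4 => mnr2 w ij.1 ij.2) ⊔
    Ideal.span {g, C X} = ⊤

end field

/-- [ME] The Mumford block. -/
def StmtME : Prop := ∀ (k : Type) [Field k] [CharZero k] (r : ℕ), 1 ≤ r → ∀ (g f : k[X][X])
  (M : Matrix (Fin 4) (Fin 4) k[X][X]) (J : Ideal k[X][X]) (w : Fin 2 → Fin 4 → k[X][X]),
  CurveN (2 * r) g f → HalfN (2 * r) g f J → Quad4 g f M → Plane g M w →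
  ∃ e₀, ∀ e ≥ e₀,
    Even (finrank k (Yd4 (2 * r) (r - 1 + e) (modX4 M J ⊓ modW g w)) +
      finrank k (Yd4 (2 * r) (r - 1) (modX4 M J)))

/-- [CE] The codimension of `X` (used by [ME]). -/
def StmtCE : Prop := ∀ (k : Type) [Field k] (n : ℕ) (g f : k[X][X])
  (M : Matrix (Fin 4) (Fin 4) k[X][X]) (J : Ideal k[X][X]), HalfN n g f J → Quad4 g f M →
  ∀ d : ℕ, finrank k (En n (d + 1) : Submodule k k[X][X]) +
    3 * finrank k (En n d : Submodule k k[X][X]) ≤ finrank k (Yd4 n d (modX4 M J)) + 3 * n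

end Vale.Agent.P287.EvenN
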