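import Vale.Agent.P287.EvenN.Main
import Vale.Agent.P287.EvenN.Mumford
import Vale.Agent.P287.H621.StmtDE
import Vale.Agent.P287.H946.ECodim
import Vale.Agent.P287.H946.EHalf
import Vale.Agent.P287.H684.EvenN.FE

/-!
Scrolls of lines over plane curves of even degree, the numerical form: the final theorem.
-/

namespace Vale.Agent.P287.EvenN

open Polynomial Matrix Module Vale.Agent.P287 Vale.Agent.P287.Theta Vale.Agent.P287.Odd
open Vale.Agent.P287.H925 Vale.Agent.P287.H925.NetResult

theorem stmtHE : StmtHE := fun _ _ _ _ hC hf hsm hsq => H946.exists_halfN hC hf hsm hsq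

theorem stmtFE : StmtFE := by
  intro n g w e T S u _ hg _ hw hTS _ hm hn hW d hd
  have h := H684.EvenN.finrank_formsW (w := w) (e := e)
    (w' := fun a i => dh (sb T (w a i))) hTS hg (g' := C (C u) * dh (sb T g)) rfl hm hn hW
    (fun _ => rfl) hw hd
  rw [← add_assoc] at h
  exact h

/-- The forms `∑ v i y i` which vanish on the scroll spanned by `w 0, w 1` over the curve `g = 0`,
with `v i` of degree `d + wt i`, for arbitrary weights. -/
noncomputable def PhiW (g : R3) (w : Fin 2 → Fin 4 → R3) (wt : Fin 4 → ℕ) (d : ℕ) :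
    Submodule ℂ (Fin 4 → R3) where
  carrier := {v | (∀ i, (v i).IsHomogeneous (d + wt i)) ∧ ∀ a, g ∣ ∑ i, v i * w a i}
  add_mem' := by
    rintro v v' ⟨h1, h2⟩ ⟨h1', h2'⟩
    refine ⟨fun i => (h1 i).add (h1' i), fun a => ?_⟩
    simp only [Pi.add_apply, add_mul, Finset.sum_add_distrib]
    exact dvd_add (h2 a) (h2' a)
  zero_mem' := ⟨fun i => MvPolynomial.isHomogeneous_zero _ _ _, fun a => by simp⟩
  smul_mem' := by
    rintro c v ⟨h1, h2⟩
    refine ⟨fun i => ?_, fun a => ?_⟩
    · rw [Pi.smul_apply, MvPolynomial.smul_eq_C_mul]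
      exact (h1 i).C_mul c
    · have h3 : ∑ i, (c • v) i * w a i = MvPolynomial.C c * ∑ i, v i * w a i := by
        rw [Finset.mul_sum]
        refine Finset.sum_congr rfl fun i _ => ?_
        rw [Pi.smul_apply, MvPolynomial.smul_eq_C_mul]
        ring
      rw [h3]
      exact (h2 a).mul_left _

lemma finrank_PhiW (g : R3) (w : Fin 2 → Fin 4 → R3) (d : ℕ) :
    finrank ℂ (Phi g (fun a i => w a (sw i)) d) = finrank ℂ (PhiW g w wt d) := by
  have hsw : ∀ i, sw (sw i) = i := by decide
  have h1 : ∀ v ∈ Phi g (fun a i => w a (sw i)) d, (fun i => v (sw i)) ∈ PhiW g w wt d := by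
    rintro v ⟨h1, h2⟩
    refine ⟨fun i => ?_, fun a => ?_⟩
    · have h3 := h1 (sw i)
      have h4 : wt0 (sw i) = wt i := by rw [← hsw i, wt_sw, hsw]; rfl
      rwa [h4] at h3
    · have h3 := h2 a
      have h4 : ∑ i, v (sw i) * w a i = (fun i => w a (sw i)) ⬝ᵥ v := by
        rw [← Equiv.sum_comp sw, dotProduct]
        refine Finset.sum_congr rfl fun i _ => ?_
        rw [hsw, mul_comm]
      rwa [h4]
  have h2 : ∀ v ∈ PhiW g w wt d, (fun i => v (sw i)) ∈ Phi g (fun a i => w a (sw i)) d := by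
    rintro v ⟨h1, h2⟩
    refine ⟨fun i => ?_, fun a => ?_⟩
    · have h3 := h1 (sw i)
      rw [wt_sw] at h3
      exact h3
    · have h3 := h2 a
      have h4 : (fun i => w a (sw i)) ⬝ᵥ (fun i => v (sw i)) = ∑ i, v i * w a i := by
        rw [dotProduct, ← Equiv.sum_comp sw (fun i => v i * w a i)]
        refine Finset.sum_congr rfl fun i _ => ?_
        rw [mul_comm]
      rwa [h4]
  let E : Phi g (fun a i => w a (sw i)) d ≃ₗ[ℂ] PhiW g w wt d :=
    { toFun := fun v => ⟨fun i => v.1 (sw i), h1 v.1 v.2⟩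
      invFun := fun v => ⟨fun i => v.1 (sw i), h2 v.1 v.2⟩
      map_add' := fun v v' => rfl
      map_smul' := fun c v => rfl
      left_inv := fun v => by
        apply Subtype.ext
        funext i
        exact congrArg v.1 (hsw i)
      right_inv := fun v => by
        apply Subtype.ext
        funext i
        exact congrArg v.1 (hsw i) }
  exact E.finrank_eq

/-- **Even scrolls, numerical form.** -/
theorem even_parity_theorem {M : Matrix (Fin 4) (Fin 4) R3} (hM : M.IsSymm)
    (hdeg : ∀ i j, (M i j).IsHomogeneous (1 + wt i + wt j)) (hs : SmoothForm (cubicOf M))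
    (hsm : SmoothP M.det) {g : R3} {r : ℕ} (hg : Irreducible g) (hgr : g.IsHomogeneous (2 * r))
    (hgf : ¬ g ∣ M.det) {w : Fin 2 → Fin 4 → R3} {e : Fin 2 → ℕ}
    (hw : ∀ a i, (w a i).IsHomogeneous (e a + 1 - wt i))
    (hiso : ∀ a b, g ∣ w a ⬝ᵥ (M *ᵥ w b)) {i j : Fin 4}
    (hij : ¬ g ∣ w 0 i * w 1 j - w 0 j * w 1 i)
    (hodd : ∀ N : ℕ, ∃ d, N ≤ d ∧ Odd (finrank ℂ (PhiW g w wt d) + d + r)) :
    RationalHypersurface (cubicOf M) := by
  have hdet : (M.submatrix sw sw).det = M.det := Matrix.det_submatrix_equiv_self sw M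
  have hadj : (M.submatrix sw sw).adjugate 0 0 = M.adjugate 3 3 := by
    rw [Matrix.adjugate_submatrix_equiv_self]
    rfl
  have hr : 1 ≤ r := by
    by_contra h
    obtain rfl : r = 0 := by omega
    exact hg.not_isUnit (isUnit_of_homog_zero hgr hg.ne_zero)
  have hsw : ∀ i, sw (sw i) = i := by decide
  by_cases hδ : M.adjugate 3 3 = 0
  · obtain ⟨v, hv, hqv⟩ := isotropic_of_minor (M := M.submatrix sw sw) (by rw [hadj, hδ])
    refine rational_of_isotropic_matrix M hdeg hs (v ∘ sw) ?_ ?_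
    · intro h
      apply hv
      funext i
      have := congrFun h (sw i)
      simpa using this
    · rw [← hqv]
      simp only [dotProduct, Matrix.mulVec, Matrix.map_apply, Matrix.submatrix_apply]
      rw [← Equiv.sum_comp sw]
      refine Finset.sum_congr rfl fun i _ => ?_
      rw [← Equiv.sum_comp sw]
      simp
  have hfs := fibShape_sw hM hdeg
  have hw' : ∀ a i, (w a (sw i)).IsHomogeneous (e a + 1 - wt0 i) := by
    intro a i
    have h := hw a (sw i)
    rwa [wt_sw] at h
  have hdot : ∀ a b, (fun i => w a (sw i)) ⬝ᵥ (M.submatrix sw sw *ᵥ fun i => w b (sw i)) =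
      w a ⬝ᵥ (M *ᵥ w b) := by
    intro a b
    simp only [dotProduct, Matrix.mulVec, Matrix.submatrix_apply]
    rw [← Equiv.sum_comp sw (fun i => w a i * ∑ j, M i j * w b j)]
    refine Finset.sum_congr rfl fun i _ => ?_
    rw [← Equiv.sum_comp sw (fun j => M (sw i) j * w b j)]
  have hno := not_oneSec (stmtME H946.stmtCE) stmtFE H621.stmtDE stmtHE (M := M.submatrix sw sw)
    (g := g) (r := r) hfs (by rw [hdet]; exact hsm) (by rw [hadj]; exact hδ) hr hgr hg
    (by rw [hdet]; exact hgf) (w := fun a i => w a (sw i)) (e := e) hw'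
    (fun a b => by rw [hdot]; exact hiso a b) (i := sw i) (j := sw j)
    (by simp only [mnr2, hsw]; exact hij)
    (by intro N; obtain ⟨d, hd, hd'⟩ := hodd N; exact ⟨d, hd, by rwa [finrank_PhiW]⟩)
  have hsq : SquareMod M.det g := by
    have := squareMod_of_plane (g := g) (M := M.submatrix sw sw) (hM.submatrix sw)
      (w := fun a i => w a (sw i)) (e := e) hw' (fun a b => by rw [hdot]; exact hiso a b)
      (i := sw i) (j := sw j) (by simp only [mnr2, hsw]; exact hij)
    rwa [hdet] at this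
  refine theta_main hM hdeg hs hsm hg hgr hgf hsq ?_
  rintro ⟨b₀, h1, h2, h3⟩
  apply hno
  refine ⟨b₀, ?_, ?_, ?_⟩
  · rw [hdet, hadj]
    exact h1
  · rw [hdet]
    exact h2
  · intro b hb
    rw [hdet, hadj] at hb
    rw [hdet]
    exact h3 b hb

end Vale.Agent.P287.EvenN
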