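import Vale.Agent.P287.Odd.Lags

/-!
The parity statement for three Lagrangian subspaces of `ι → Q`, general form.
-/

namespace Vale.Agent.P287.EvenN

open Matrix Module Vale.Agent.P287.Odd

section pi

variable {k : Type*} [Field k] {V : Type*} [AddCommGroup V] [Module k V] {ι : Type*} [Fintype ι]

/-- The submodule of the families with values in `p i`. -/
def piEquiv' (p : ι → Submodule k V) :
    (Submodule.pi Set.univ p : Submodule k (ι → V)) ≃ₗ[k] (∀ i, p i) where
  toFun w i := ⟨w.1 i, w.2 i (Set.mem_univ i)⟩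
  map_add' _ _ := rfl
  map_smul' _ _ := rfl
  invFun u := ⟨fun i => u i, fun i _ => (u i).2⟩
  left_inv _ := rfl
  right_inv _ := rfl

lemma finrank_pi_sub' (p : ι → Submodule k V) [∀ i, Module.Finite k (p i)] :
    finrank k (Submodule.pi Set.univ p : Submodule k (ι → V)) = ∑ i, finrank k (p i) := by
  rw [(piEquiv' p).finrank_eq, Module.finrank_pi_fintype]

end pi

section gen

variable {k : Type} [Field k] {Q : Type} [CommRing Q] [Algebra k Q] [Module.Finite k Q]
  {ι ρ : Type} [Fintype ι] [Fintype ρ] [DecidableEq ι] [DecidableEq ρ]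

/-- The bilinear form `v N w`. -/
def PhG (N : Matrix ι ι Q) (v w : ι → Q) : Q := v ⬝ᵥ (N *ᵥ w)

omit [DecidableEq ι] in
lemma PhG_smul_left (N : Matrix ι ι Q) (c : Q) (v w : ι → Q) :
    PhG N (c • v) w = c * PhG N v w := by
  rw [PhG, PhG, smul_dotProduct, smul_eq_mul]

omit [DecidableEq ι] in
lemma PhG_smul_right (N : Matrix ι ι Q) (c : Q) (v w : ι → Q) :
    PhG N v (c • w) = c * PhG N v w := by
  rw [PhG, PhG, mulVec_smul, dotProduct_smul, smul_eq_mul]

omit [DecidableEq ι] in
lemma PhG_symm {N : Matrix ι ι Q} (hN : N.IsSymm) (v w : ι → Q) : PhG N v w = PhG N w v := by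
  rw [PhG, PhG, dotProduct_mulVec, ← mulVec_transpose, hN.eq, dotProduct_comm]

/-- The scalar form. -/
noncomputable def betG (lam : Q →ₗ[k] k) (N : Matrix ι ι Q) :
    (ι → Q) →ₗ[k] (ι → Q) →ₗ[k] k :=
  LinearMap.mk₂ k (fun v w => lam (PhG N v w))
    (fun v v' w => by rw [PhG, add_dotProduct, map_add]; rfl)
    (fun c v w => by
      rw [← algebraMap_smul Q c v, PhG_smul_left, ← Algebra.smul_def, map_smul, smul_eq_mul])
    (fun v w w' => by rw [PhG, mulVec_add, dotProduct_add, map_add]; rfl)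
    (fun c v w => by
      rw [← algebraMap_smul Q c w, PhG_smul_right, ← Algebra.smul_def, map_smul, smul_eq_mul])

omit [Module.Finite k Q] [DecidableEq ι] in
lemma betG_apply (lam : Q →ₗ[k] k) (N : Matrix ι ι Q) (v w : ι → Q) :
    betG lam N v w = lam (PhG N v w) := rfl

omit [Module.Finite k Q] in
lemma betG_nondeg (lam : Q →ₗ[k] k) (hlam : ∀ u, (∀ r, lam (r * u) = 0) → u = 0)
    {N N' : Matrix ι ι Q} (hN : N * N' = 1) (v : ι → Q) (hv : ∀ w, betG lam N v w = 0) :
    v = 0 := by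
  have h0 : ∀ w, PhG N v w = 0 := by
    intro w
    refine hlam _ fun r => ?_
    have h2 := hv (r • w)
    rwa [betG_apply, PhG_smul_right] at h2
  funext i
  have h1 := h0 (N' *ᵥ Pi.single i 1)
  rw [PhG, mulVec_mulVec, hN, one_mulVec, dotProduct_single_one] at h1
  exact h1

/-- The kernel of `W`, with entries in `I`. -/
noncomputable def KI (k : Type) [Field k] {Q : Type} [CommRing Q] [Algebra k Q] {ι ρ : Type}
    [Fintype ι] (W : Matrix ρ ι Q) (I : Ideal Q) : Submodule k (ι → Q) where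
  carrier := {v | W *ᵥ v = 0 ∧ ∀ i, v i ∈ I}
  add_mem' := by
    rintro v w ⟨h1, h2⟩ ⟨h3, h4⟩
    exact ⟨by rw [mulVec_add, h1, h3, add_zero], fun i => I.add_mem (h2 i) (h4 i)⟩
  zero_mem' := ⟨mulVec_zero _, fun i => I.zero_mem⟩
  smul_mem' := by
    rintro c v ⟨h1, h2⟩
    rw [← algebraMap_smul Q c v]
    exact ⟨by rw [mulVec_smul, h1, smul_zero], fun i => I.mul_mem_left _ (h2 i)⟩

/-- Multiplication by `W`. -/
noncomputable def mulL (k : Type) [Field k] {Q : Type} [CommRing Q] [Algebra k Q] {ι ρ : Type}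
    [Fintype ι] (W : Matrix ρ ι Q) : (ι → Q) →ₗ[k] (ρ → Q) :=
  (mulVecLin W).restrictScalars k

omit [DecidableEq ι] in
theorem finrank_KI {W : Matrix ρ ι Q} {Z : Matrix ι ρ Q} (hW : W * Z = 1) (I : Ideal Q) :
    finrank k (KI k W I) + Fintype.card ρ * finrank k (I.restrictScalars k) =
      Fintype.card ι * finrank k (I.restrictScalars k) := by
  set T : Submodule k (ι → Q) := Submodule.pi Set.univ fun _ => I.restrictScalars k with hT
  have hTm : ∀ a, a ∈ T ↔ ∀ i, a i ∈ I := by
    intro a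
    rw [hT, Submodule.mem_pi]
    simp
  have h1 : T.map (mulL k W) = Submodule.pi Set.univ fun _ : ρ => I.restrictScalars k := by
    ext y
    rw [Submodule.mem_pi]
    constructor
    · rintro ⟨a, ha, rfl⟩ j -
      have ha' := (hTm a).mp ha
      exact I.sum_mem fun i _ => I.mul_mem_left _ (ha' i)
    · intro hy
      refine ⟨Z *ᵥ y, (hTm _).mpr fun i => I.sum_mem fun j _ =>
        I.mul_mem_left _ (hy j (Set.mem_univ _)), ?_⟩
      change W *ᵥ (Z *ᵥ y) = y
      rw [mulVec_mulVec, hW, one_mulVec]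
  have h2 : T ⊓ LinearMap.ker (mulL k W) = KI k W I := by
    ext v
    rw [Submodule.mem_inf, hTm]
    exact ⟨fun h => ⟨h.2, h.1⟩, fun h => ⟨h.2, h.1⟩⟩
  have h3 := finrank_map_add (mulL k W) T
  rw [h1, h2, hT, finrank_pi_sub', finrank_pi_sub'] at h3
  simp only [Finset.sum_const, Finset.card_univ, smul_eq_mul] at h3
  omega

/-- The vectors killed by `P`. -/
noncomputable def L1G (k : Type) [Field k] {Q : Type} [CommRing Q] [Algebra k Q] (ι : Type)
    (P : Q) : Submodule k (ι → Q) := Submodule.pi Set.univ fun _ => (annI P).restrictScalars k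

omit [Module.Finite k Q] [Fintype ι] [DecidableEq ι] in
lemma mem_L1G {P : Q} {v : ι → Q} : v ∈ L1G k ι P ↔ ∀ i, P * v i = 0 := by
  rw [L1G, Submodule.mem_pi]
  simp [mem_annI]

/-- Isotropic subspaces have at most half the dimension. -/
lemma two_mul_finrank_le (lam : Q →ₗ[k] k) (hlam : ∀ u, (∀ r, lam (r * u) = 0) → u = 0)
    {N N' : Matrix ι ι Q} (hN : N * N' = 1) (L : Submodule k (ι → Q))
    (hL : ∀ x ∈ L, ∀ y ∈ L, betG lam N x y = 0) :
    2 * finrank k L ≤ finrank k (ι → Q) := by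
  set T : Submodule k (ι → Q) :=
    { carrier := {x | ∀ y ∈ L, betG lam N x y = 0}
      add_mem' := fun {a b} ha hb y hy => by
        rw [map_add, LinearMap.add_apply, ha y hy, hb y hy, add_zero]
      zero_mem' := fun y _ => by rw [map_zero, LinearMap.zero_apply]
      smul_mem' := fun c a ha y hy => by
        rw [map_smul, LinearMap.smul_apply, ha y hy, smul_zero] } with hT
  have h4 := finrank_orth (betG lam N) (betG_nondeg lam hlam hN) L T (fun x => Iff.rfl)
  have h5 : L ≤ T := fun x hx y hy => hL x hx y hy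
  have h6 := Submodule.finrank_mono h5
  omega

/-- The parity theorem. -/
theorem parityG (h2 : (2 : k) ≠ 0) (lam : Q →ₗ[k] k)
    (hlam : ∀ u, (∀ r, lam (r * u) = 0) → u = 0) {N N' : Matrix ι ι Q} (hs : N.IsSymm)
    (hN : N * N' = 1) {W : Matrix ρ ι Q} {Z : Matrix ι ρ Q} (hW : W * Z = 1)
    (hcard : Fintype.card ι = 2 * Fintype.card ρ)
    (hiso : ∀ v w, W *ᵥ v = 0 → W *ᵥ w = 0 → PhG N v w = 0) {P : Q}
    (hP : ∀ u, P * u = 0 → ∃ w, u = P * w) (hPP : P * P = 0) (L₃ : Submodule k (ι → Q))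
    (h33 : ∀ v ∈ L₃, ∀ w ∈ L₃, lam (PhG N v w) = 0)
    (h3 : Fintype.card ρ * finrank k Q ≤ finrank k L₃) :
    finrank k L₃ = Fintype.card ρ * finrank k Q ∧
      Even (finrank k (KI k W ⊤ ⊓ L₃ : Submodule k (ι → Q)) +
        finrank k (L1G k ι P ⊓ L₃ : Submodule k (ι → Q)) +
          Fintype.card ρ * finrank k ((annI P).restrictScalars k)) := by
  have hU : finrank k (ι → Q) = 2 * (Fintype.card ρ * finrank k Q) := by
    rw [Module.finrank_pi_fintype]
    simp only [Finset.sum_const, Finset.card_univ, smul_eq_mul, hcard]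
    ring
  have hnd := betG_nondeg lam hlam hN
  have e3 : finrank k L₃ = Fintype.card ρ * finrank k Q := by
    have := two_mul_finrank_le lam hlam hN L₃ h33
    omega
  refine ⟨e3, ?_⟩
  have hann := finrank_annI (k := k) hP hPP
  set a := finrank k ((annI P).restrictScalars k) with ha
  have e1 : finrank k (L1G k ι P) = 2 * (Fintype.card ρ * a) := by
    rw [L1G, finrank_pi_sub']
    simp only [Finset.sum_const, Finset.card_univ, smul_eq_mul, hcard]
    rw [ha]
    ring
  have e2 : finrank k (KI k W ⊤) = Fintype.card ρ * finrank k Q := by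
    have h4 := finrank_KI (k := k) hW ⊤
    have h5 : finrank k ((⊤ : Ideal Q).restrictScalars k) = finrank k Q := finrank_top k Q
    rw [h5, hcard] at h4
    nlinarith
  have h11 : ∀ x ∈ L1G k ι P, ∀ y ∈ L1G k ι P, betG lam N x y = 0 := by
    intro x hx y hy
    rw [mem_L1G] at hx
    have h4 : ∃ x', x = P • x' := by
      choose x' hx' using fun i => hP (x i) (hx i)
      exact ⟨x', funext hx'⟩
    obtain ⟨x', rfl⟩ := h4
    rw [mem_L1G] at hy
    have h5 : P • y = 0 := funext hy
    have h6 : PhG N (P • x') y = 0 := by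
      rw [PhG_smul_left, ← PhG_smul_right, h5, PhG, mulVec_zero, dotProduct_zero]
    rw [betG_apply, h6, map_zero]
  have h22 : ∀ x ∈ KI k W ⊤, ∀ y ∈ KI k W ⊤, betG lam N x y = 0 := by
    intro x hx y hy
    rw [betG_apply, hiso x y hx.1 hy.1, map_zero]
  have h12 : (L1G k ι P ⊓ KI k W ⊤ : Submodule k (ι → Q)) = KI k W (annI P) := by
    ext v
    rw [Submodule.mem_inf, mem_L1G]
    constructor
    · rintro ⟨h4, h5⟩
      exact ⟨h5.1, fun i => mem_annI.mpr (h4 i)⟩
    · rintro ⟨h4, h5⟩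
      exact ⟨fun i => mem_annI.mp (h5 i), h4, fun i => trivial⟩
  have e12 : finrank k (KI k W (annI P)) = Fintype.card ρ * a := by
    have h4 := finrank_KI (k := k) hW (annI P)
    rw [hcard, ← ha] at h4
    nlinarith
  have hmain := lagrangian_triple h2 (betG lam N) (fun v w => by
    rw [betG_apply, betG_apply, PhG_symm hs]) hnd (L1G k ι P) (KI k W ⊤) L₃ h11 h22 h33
    (by rw [e1, hU, ← hann]; ring) (by rw [e2, hU]) (by rw [e3, hU])
  rw [h12, e12, e1] at hmain
  obtain ⟨r, hr⟩ := hmain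
  refine ⟨r - Fintype.card ρ * a, ?_⟩
  omega

end gen

end Vale.Agent.P287.EvenN
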