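import Vale.Agent.P287.EvenN.Spec

/-!
Linear algebra of the isotropic plane: the orthogonal linear forms are isotropic for the adjugate
matrix, and the determinant is a square.
-/

namespace Vale.Agent.P287.EvenN

open Matrix Module

section field

variable {κ : Type*} [Field κ]

lemma symm_dot {n : ℕ} {M : Matrix (Fin n) (Fin n) κ} (hM : M.IsSymm) (x y : Fin n → κ) :
    x ⬝ᵥ (M *ᵥ y) = y ⬝ᵥ (M *ᵥ x) := by
  rw [Matrix.dotProduct_mulVec, ← Matrix.mulVec_transpose, hM.eq, dotProduct_comm]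

/-- A linear form which vanishes on a Lagrangian plane is isotropic for the dual form. -/
lemma dual_iso (M : Matrix (Fin 4) (Fin 4) κ) (hdet : M.det ≠ 0)
    (w : Fin 2 → Fin 4 → κ) (hw : LinearIndependent κ w) (hiso : ∀ a b, w a ⬝ᵥ (M *ᵥ w b) = 0)
    (v : Fin 4 → κ) (hv : ∀ a, w a ⬝ᵥ v = 0) : v ⬝ᵥ (M.adjugate *ᵥ v) = 0 := by
  classical
  have hu : IsUnit M.det := isUnit_iff_ne_zero.2 hdet
  set u : Fin 4 → κ := M⁻¹ *ᵥ v with hudef
  have hMu : M *ᵥ u = v := by
    rw [hudef, mulVec_mulVec, mul_nonsing_inv _ hu, one_mulVec]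
  -- the orthogonal of the plane
  let N : Matrix (Fin 2) (Fin 4) κ := Matrix.of w
  let Φ : (Fin 4 → κ) →ₗ[κ] (Fin 2 → κ) := (N * M).mulVecLin
  have hΦ : ∀ y a, Φ y a = w a ⬝ᵥ (M *ᵥ y) := by
    intro y a
    change ((N * M) *ᵥ y) a = _
    rw [← mulVec_mulVec]
    rfl
  have hrank : finrank κ (LinearMap.range Φ) = 2 := by
    have h1 : (N * M).rank = N.rank := Matrix.rank_mul_eq_left_of_isUnit_det M N hu
    have h2 : N.rank = 2 := by
      have := LinearIndependent.rank_matrix (M := N) hw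
      simpa using this
    exact (h1.trans h2 : (N * M).rank = 2)
  have hker : finrank κ (LinearMap.ker Φ) = 2 := by
    have h1 := Φ.finrank_range_add_finrank_ker
    rw [hrank, finrank_fintype_fun_eq_card, Fintype.card_fin] at h1
    omega
  have hle : Submodule.span κ (Set.range w) ≤ LinearMap.ker Φ := by
    rw [Submodule.span_le]
    rintro _ ⟨b, rfl⟩
    change Φ (w b) = 0
    funext a
    rw [hΦ, hiso]
    rfl
  have heq : Submodule.span κ (Set.range w) = LinearMap.ker Φ := by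
    refine Submodule.eq_of_le_of_finrank_le hle ?_
    rw [hker, finrank_span_eq_card hw, Fintype.card_fin]
  have hus : u ∈ Submodule.span κ (Set.range w) := by
    rw [heq, LinearMap.mem_ker]
    funext a
    rw [hΦ, hMu, hv]
    rfl
  have h0 : u ⬝ᵥ v = 0 := by
    have h1 : ∀ y ∈ Submodule.span κ (Set.range w), y ⬝ᵥ v = 0 := by
      intro y hy
      induction hy using Submodule.span_induction with
      | mem y hy =>
        obtain ⟨a, rfl⟩ := hy
        exact hv a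
      | zero => exact zero_dotProduct _
      | add y z _ _ hy hz => rw [add_dotProduct, hy, hz, add_zero]
      | smul c y _ hy => rw [smul_dotProduct, hy, smul_zero]
    exact h1 u hus
  have h2 : M.adjugate *ᵥ v = M.det • u := by
    rw [← hMu, mulVec_mulVec, adjugate_mul, smul_mulVec, one_mulVec]
  rw [h2, dotProduct_smul, dotProduct_comm, h0, smul_zero]

end field

section domain

variable {R : Type} [CommRing R]

/-- the two by two minors detect linear independence -/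
lemma li_of_mnr2 {κ : Type*} [Field κ] (w : Fin 2 → Fin 4 → κ) (i j : Fin 4)
    (h : w 0 i * w 1 j - w 0 j * w 1 i ≠ 0) : LinearIndependent κ w := by
  rw [Fintype.linearIndependent_iff]
  intro c hc
  have h1 := congrFun hc i
  have h2 := congrFun hc j
  simp only [Fin.sum_univ_two, Pi.add_apply, Pi.smul_apply, smul_eq_mul, Pi.zero_apply] at h1 h2
  have h3 : c 0 * (w 0 i * w 1 j - w 0 j * w 1 i) = 0 := by
    linear_combination w 1 j * h1 - w 1 i * h2
  have h4 : c 1 * (w 0 i * w 1 j - w 0 j * w 1 i) = 0 := by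
    linear_combination w 0 i * h2 - w 0 j * h1
  intro a
  fin_cases a
  · exact (mul_eq_zero.1 h3).resolve_right h
  · exact (mul_eq_zero.1 h4).resolve_right h

/-- `vᵀ adj(M) v = 0` modulo `g` for the linear forms `v` which vanish on the plane. -/
theorem dvd_dual {g : R} (hg : Prime g) {M : Matrix (Fin 4) (Fin 4) R}
    (hdet : ¬ g ∣ M.det) {w : Fin 2 → Fin 4 → R} (hiso : ∀ a b, g ∣ w a ⬝ᵥ (M *ᵥ w b))
    {i j : Fin 4} (hw : ¬ g ∣ mnr2 w i j) {v : Fin 4 → R} (hv : ∀ a, g ∣ w a ⬝ᵥ v) :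
    g ∣ v ⬝ᵥ (M.adjugate *ᵥ v) := by
  classical
  have hprime : (Ideal.span {g}).IsPrime := (Ideal.span_singleton_prime hg.ne_zero).2 hg
  let B := R ⧸ Ideal.span {g}
  have : IsDomain B := Ideal.Quotient.isDomain _
  let φ : R →+* FractionRing B := (algebraMap B (FractionRing B)).comp (Ideal.Quotient.mk _)
  have hφ : ∀ a, φ a = 0 ↔ g ∣ a := by
    intro a
    change algebraMap B (FractionRing B) (Ideal.Quotient.mk _ a) = 0 ↔ _
    rw [map_eq_zero_iff _ (IsFractionRing.injective B (FractionRing B)),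
      Ideal.Quotient.eq_zero_iff_mem, Ideal.mem_span_singleton]
  have hdot : ∀ {n : ℕ} (x y : Fin n → R), φ (x ⬝ᵥ y) = (fun i => φ (x i)) ⬝ᵥ fun i => φ (y i) :=
    fun x y => by simp only [dotProduct, map_sum, map_mul]
  have hmul : ∀ (N : Matrix (Fin 4) (Fin 4) R) (x : Fin 4 → R),
      (fun i => φ ((N *ᵥ x) i)) = (N.map φ) *ᵥ fun i => φ (x i) := by
    intro N x
    funext i
    simp only [mulVec, dotProduct, map_sum, map_mul, map_apply]
  have hadj : (M.map φ).adjugate = M.adjugate.map φ := by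
    have h := RingHom.map_adjugate φ M
    rw [RingHom.mapMatrix_apply, RingHom.mapMatrix_apply] at h
    exact h.symm
  have hdet' : (M.map φ).det = φ M.det := by
    have h := RingHom.map_det φ M
    rw [RingHom.mapMatrix_apply] at h
    exact h.symm
  rw [← hφ, hdot, hmul, ← hadj]
  refine dual_iso (M.map φ) ?_ (fun a i => φ (w a i)) ?_ ?_ _ ?_
  · rw [hdet', Ne, hφ]
    exact hdet
  · refine li_of_mnr2 _ i j ?_
    intro h
    apply hw
    rw [← hφ, mnr2, map_sub, map_mul, map_mul]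
    exact h
  · intro a b
    have h := (hφ _).2 (hiso a b)
    rw [hdot, hmul] at h
    exact h
  · intro a
    have h := (hφ _).2 (hv a)
    rw [hdot] at h
    exact h

/-- `M' ≤ X` -/
theorem modW_le {g f : R} (hg : Prime g) {M : Matrix (Fin 4) (Fin 4) R} (hM : M.IsSymm)
    (hf : M.det = f) (hgf : ¬ g ∣ f)
    (hminor : ∀ i j k l, f ∣ M.adjugate i j * M.adjugate k l - M.adjugate i l * M.adjugate k j)
    {w : Fin 2 → Fin 4 → R} (hiso : ∀ a b, g ∣ w a ⬝ᵥ (M *ᵥ w b)) {i₀ j₀ : Fin 4}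
    (hw : ¬ g ∣ mnr2 w i₀ j₀) {J : Ideal R} (hJ : ∀ c, c ^ 2 ∈ Ideal.span {f, g} → c ∈ J) :
    modW g w ≤ modX4 M J := by
  intro v hv i
  apply hJ
  obtain ⟨b, hb⟩ := dvd_dual hg (by rw [hf]; exact hgf) hiso hw hv
  have hadj : M.adjugate.IsSymm := hM.adjugate
  have h1 : f ∣ (M.adjugate *ᵥ v) i ^ 2 - M.adjugate i i * (v ⬝ᵥ (M.adjugate *ᵥ v)) := by
    have h2 : (M.adjugate *ᵥ v) i ^ 2 - M.adjugate i i * (v ⬝ᵥ (M.adjugate *ᵥ v)) =
        ∑ j, ∑ l, (M.adjugate i j * M.adjugate l i - M.adjugate i i * M.adjugate l j) *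
          (v j * v l) := by
      simp only [mulVec, dotProduct, sq, Finset.sum_mul, Finset.mul_sum, sub_mul,
        Finset.sum_sub_distrib]
      congr 1
      · rw [Finset.sum_comm]
        refine Finset.sum_congr rfl fun j _ => Finset.sum_congr rfl fun l _ => ?_
        rw [hadj.apply i l]
        ring
      · rw [Finset.sum_comm]
        refine Finset.sum_congr rfl fun j _ => Finset.sum_congr rfl fun l _ => ?_
        ring
    rw [h2]
    refine Finset.dvd_sum fun j _ => Finset.dvd_sum fun l _ => ?_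
    exact (hminor i j l i).mul_right _
  obtain ⟨c, hc⟩ := h1
  rw [Ideal.mem_span_pair]
  refine ⟨c, M.adjugate i i * b, ?_⟩
  rw [hb] at hc
  linear_combination -hc

/-- The determinant of a `4 × 4` matrix. -/
lemma det_four' (M : Matrix (Fin 4) (Fin 4) R) :
    M.det = M 0 0 * (M 1 1 * (M 2 2 * M 3 3 - M 2 3 * M 3 2) - M 1 2 * (M 2 1 * M 3 3 - M 2 3 * M 3 1)
        + M 1 3 * (M 2 1 * M 3 2 - M 2 2 * M 3 1))
      - M 0 1 * (M 1 0 * (M 2 2 * M 3 3 - M 2 3 * M 3 2) - M 1 2 * (M 2 0 * M 3 3 - M 2 3 * M 3 0)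
        + M 1 3 * (M 2 0 * M 3 2 - M 2 2 * M 3 0))
      + M 0 2 * (M 1 0 * (M 2 1 * M 3 3 - M 2 3 * M 3 1) - M 1 1 * (M 2 0 * M 3 3 - M 2 3 * M 3 0)
        + M 1 3 * (M 2 0 * M 3 1 - M 2 1 * M 3 0))
      - M 0 3 * (M 1 0 * (M 2 1 * M 3 2 - M 2 2 * M 3 1) - M 1 1 * (M 2 0 * M 3 2 - M 2 2 * M 3 0)
        + M 1 2 * (M 2 0 * M 3 1 - M 2 1 * M 3 0)) := by
  rw [Matrix.det_succ_row_zero]
  simp only [Matrix.det_fin_three, Matrix.submatrix_apply, Fin.sum_univ_succ, Fin.succ_zero_eq_one,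
    Fin.succ_one_eq_two]
  simp [Fin.succAbove, Fin.lt_def]
  ring

/-- The determinant is a square, up to a square, modulo `g`. -/
theorem square_of_plane {g : R} {M : Matrix (Fin 4) (Fin 4) R}
    (hM : M.IsSymm) {w : Fin 2 → Fin 4 → R} (hiso : ∀ a b, g ∣ w a ⬝ᵥ (M *ᵥ w b))
    (i j k l : Fin 4) (hP : (Matrix.of ![w 0, w 1, Pi.single k 1, Pi.single l 1] :
      Matrix (Fin 4) (Fin 4) R).det = mnr2 w i j ∨ (Matrix.of ![w 0, w 1, Pi.single k 1,
        Pi.single l 1] : Matrix (Fin 4) (Fin 4) R).det = -mnr2 w i j) :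
    g ∣ mnr2 w i j ^ 2 * M.det - (((M *ᵥ w 0) k) * ((M *ᵥ w 1) l) -
      ((M *ᵥ w 0) l) * ((M *ᵥ w 1) k)) ^ 2 := by
  classical
  set P : Matrix (Fin 4) (Fin 4) R := Matrix.of ![w 0, w 1, Pi.single k 1, Pi.single l 1] with hPdef
  have h1 : (P * M * P.transpose).det = mnr2 w i j ^ 2 * M.det := by
    rw [det_mul, det_mul, det_transpose]
    rcases hP with h | h <;> rw [h] <;> ring
  have hent : ∀ a b, (P * M * P.transpose) a b = P a ⬝ᵥ (M *ᵥ P b) := by
    intro a b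
    rw [Matrix.mul_assoc, Matrix.mul_apply]
    refine Finset.sum_congr rfl fun c _ => ?_
    congr 1
  have hsy : ∀ x y : Fin 4 → R, x ⬝ᵥ (M *ᵥ y) = y ⬝ᵥ (M *ᵥ x) := fun x y => by
    rw [Matrix.dotProduct_mulVec, ← Matrix.mulVec_transpose, hM.eq, dotProduct_comm]
  have hP0 : P 0 = w 0 := rfl
  have hP1 : P 1 = w 1 := rfl
  have hP2 : P 2 = Pi.single k 1 := rfl
  have hP3 : P 3 = Pi.single l 1 := rfl
  set G := P * M * P.transpose with hG
  obtain ⟨a00, h00⟩ := hiso 0 0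
  obtain ⟨a01, h01⟩ := hiso 0 1
  obtain ⟨a11, h11⟩ := hiso 1 1
  have g00 : G 0 0 = g * a00 := by rw [hent, hP0, h00]
  have g01 : G 0 1 = g * a01 := by rw [hent, hP0, hP1, h01]
  have g10 : G 1 0 = g * a01 := by rw [hent, hP0, hP1, hsy, h01]
  have g11 : G 1 1 = g * a11 := by rw [hent, hP1, h11]
  have hs : ∀ (c : Fin 4) (y : Fin 4 → R), Pi.single c 1 ⬝ᵥ y = y c := fun c y => by
    rw [single_dotProduct, one_mul]
  have g20 : G 2 0 = (M *ᵥ w 0) k := by rw [hent, hP2, hP0, hs]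
  have g02 : G 0 2 = (M *ᵥ w 0) k := by rw [hent, hP2, hP0, hsy, hs]
  have g30 : G 3 0 = (M *ᵥ w 0) l := by rw [hent, hP3, hP0, hs]
  have g03 : G 0 3 = (M *ᵥ w 0) l := by rw [hent, hP3, hP0, hsy, hs]
  have g21 : G 2 1 = (M *ᵥ w 1) k := by rw [hent, hP2, hP1, hs]
  have g12 : G 1 2 = (M *ᵥ w 1) k := by rw [hent, hP2, hP1, hsy, hs]
  have g31 : G 3 1 = (M *ᵥ w 1) l := by rw [hent, hP3, hP1, hs]
  have g13 : G 1 3 = (M *ᵥ w 1) l := by rw [hent, hP3, hP1, hsy, hs]
  rw [← h1, det_four']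
  rw [g00, g01, g10, g11, g20, g02, g30, g03, g21, g12, g31, g13]
  generalize (M *ᵥ w 0) k = x0
  generalize (M *ᵥ w 0) l = x1
  generalize (M *ᵥ w 1) k = y0
  generalize (M *ᵥ w 1) l = y1
  generalize G 2 2 = z22
  generalize G 2 3 = z23
  generalize G 3 2 = z32
  generalize G 3 3 = z33
  refine ⟨a00 * (g * a11 * (z22 * z33 - z23 * z32) - y0 * (y0 * z33 - z23 * y1) +
      y1 * (y0 * z32 - z22 * y1)) - a01 * (g * a01 * (z22 * z33 - z23 * z32) -
      y0 * (x0 * z33 - z23 * x1) + y1 * (x0 * z32 - z22 * x1)) +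
      (x0 * (a01 * (y0 * z33 - z23 * y1) - a11 * (x0 * z33 - z23 * x1)) -
       x1 * (a01 * (y0 * z32 - z22 * y1) - a11 * (x0 * z32 - z22 * x1))), ?_⟩
  ring

end domain

end Vale.Agent.P287.EvenN
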