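import Vale.Agent.P287.EvenN.Skel
import Vale.Agent.P287.EvenN.Linear
import Vale.Agent.P287.EvenN.AdjMinor
import Vale.Agent.P287.H270.EvenFrame

/-!
Scrolls of lines over plane curves of even degree, the numerical form: assembly.
-/

namespace Vale.Agent.P287.EvenN

open Polynomial Matrix Module Vale.Agent.P287 Vale.Agent.P287.Theta Vale.Agent.P287.Odd

/-- `C(r, 2) + C(r - 1, 2) = (r - 1)²` -/
lemma choose_two_add (r : ℕ) : (r + 1).choose 2 + r.choose 2 = r ^ 2 := by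
  rw [Nat.choose_two_right, Nat.choose_two_right, Nat.add_sub_cancel]
  rcases r with _ | r
  · rfl
  · rw [Nat.add_sub_cancel]
    have h1 : 2 ∣ (r + 1 + 1) * (r + 1) := by
      rw [mul_comm]
      exact (Nat.even_mul_succ_self (r + 1)).two_dvd
    have h2 : 2 ∣ (r + 1) * r := by
      rw [mul_comm]
      exact (Nat.even_mul_succ_self r).two_dvd
    obtain ⟨a, ha⟩ := h1
    obtain ⟨b, hb⟩ := h2
    rw [ha, hb, Nat.mul_div_cancel_left _ two_pos, Nat.mul_div_cancel_left _ two_pos]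
    nlinarith

/-- The arithmetic of the parities. -/
lemma parity_arith {r d F Y Z : ℕ} (hr : 1 ≤ r) (hd : 2 * r ≤ d)
    (hF : F = Y + 3 * (d - 2 * r + 2).choose 2 + (d - 2 * r + 3).choose 2)
    (hZ : Z = 1 + 3 * r.choose 2 + (r - 1).choose 2) (hE : Even (Y + Z)) :
    Even (F + d + r) := by
  obtain ⟨t, rfl⟩ := Nat.exists_eq_add_of_le hd
  obtain ⟨s, rfl⟩ := Nat.exists_eq_add_of_le hr
  have e1 : 2 * (1 + s) + t - 2 * (1 + s) = t := by omega
  rw [e1] at hF
  have e2 : 1 + s - 1 = s := by omega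
  rw [e2, add_comm 1 s] at hZ
  have h1 := choose_two_add (t + 2)
  have h2 := choose_two_add s
  have e3 : t + 2 + 1 = t + 3 := by omega
  rw [e3] at h1
  have h3 : Even (t ^ 2 + t) := by
    have := Nat.even_mul_succ_self t
    have e : t ^ 2 + t = t * (t + 1) := by ring
    rwa [e]
  have h4 : Even (s ^ 2 + s) := by
    have := Nat.even_mul_succ_self s
    have e : s ^ 2 + s = s * (s + 1) := by ring
    rwa [e]
  obtain ⟨a, ha⟩ := hE
  obtain ⟨b, hb⟩ := h3
  obtain ⟨c, hc⟩ := h4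
  have e4 : (t + 2) ^ 2 = t ^ 2 + 4 * t + 4 := by ring
  rw [e4] at h1
  generalize (t + 2).choose 2 = x at *
  generalize (t + 3).choose 2 = y at *
  generalize (s + 1).choose 2 = z at *
  generalize s.choose 2 = v at *
  generalize t ^ 2 = t2 at *
  generalize s ^ 2 = s2 at *
  rw [Nat.even_iff]
  omega

/-- the complementary indices of a minor -/
lemma exists_compl {R : Type} [CommRing R] (w : Fin 2 → Fin 4 → R) (i j : Fin 4) (hij : i ≠ j) :
    ∃ k l : Fin 4, (Matrix.of ![w 0, w 1, Pi.single k 1, Pi.single l 1] :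
      Matrix (Fin 4) (Fin 4) R).det = mnr2 w i j ∨ (Matrix.of ![w 0, w 1, Pi.single k 1,
        Pi.single l 1] : Matrix (Fin 4) (Fin 4) R).det = -mnr2 w i j := by
  fin_cases i <;> fin_cases j
  · exact absurd rfl hij
  · refine ⟨2, 3, ?_⟩
    rw [det_four']
    simp [mnr2]
  · refine ⟨1, 3, ?_⟩
    rw [det_four']
    simp [mnr2]
    right; ring
  · refine ⟨1, 2, ?_⟩
    rw [det_four']
    simp [mnr2]
  · refine ⟨2, 3, ?_⟩
    rw [det_four']
    simp [mnr2]
  · exact absurd rfl hij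
  · refine ⟨0, 3, ?_⟩
    rw [det_four']
    simp [mnr2]
    left; ring
  · refine ⟨0, 2, ?_⟩
    rw [det_four']
    simp [mnr2]
    right; ring
  · refine ⟨1, 3, ?_⟩
    rw [det_four']
    simp [mnr2]
    left; ring
  · refine ⟨0, 3, ?_⟩
    rw [det_four']
    simp [mnr2]
    right; ring
  · exact absurd rfl hij
  · refine ⟨0, 1, ?_⟩
    rw [det_four']
    simp [mnr2]
  · refine ⟨1, 2, ?_⟩
    rw [det_four']
    simp [mnr2]
  · refine ⟨0, 2, ?_⟩
    rw [det_four']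
    simp [mnr2]
    left; ring
  · refine ⟨0, 1, ?_⟩
    rw [det_four']
    simp [mnr2]
  · exact absurd rfl hij

lemma mnr2_homog {w : Fin 2 → Fin 4 → R3} {e : Fin 2 → ℕ}
    (hw : ∀ a i, (w a i).IsHomogeneous (e a + 1 - wt0 i)) (i j : Fin 4) :
    (mnr2 w i j).IsHomogeneous (e 0 + e 1 + 2 - wt0 i - wt0 j) := by
  have h0 : ∀ i, wt0 i ≤ 1 := by decide
  have hi := h0 i
  have hj := h0 j
  have h1 := (hw 0 i).mul (hw 1 j)
  have h2 := (hw 0 j).mul (hw 1 i)
  have e1 : e 0 + 1 - wt0 i + (e 1 + 1 - wt0 j) = e 0 + e 1 + 2 - wt0 i - wt0 j := by omega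
  have e2 : e 0 + 1 - wt0 j + (e 1 + 1 - wt0 i) = e 0 + e 1 + 2 - wt0 i - wt0 j := by omega
  rw [e1] at h1
  rw [e2] at h2
  exact h1.sub h2

/-- The determinant is a square in the function field of the curve. -/
theorem squareMod_of_plane {g : R3} {M : Matrix (Fin 4) (Fin 4) R3} (hM : M.IsSymm)
    {w : Fin 2 → Fin 4 → R3} {e : Fin 2 → ℕ}
    (hw : ∀ a i, (w a i).IsHomogeneous (e a + 1 - wt0 i))
    (hiso : ∀ a b, g ∣ w a ⬝ᵥ (M *ᵥ w b)) {i j : Fin 4} (hij : ¬ g ∣ mnr2 w i j) :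
    SquareMod M.det g := by
  have hne : i ≠ j := by
    rintro rfl
    apply hij
    rw [mnr2, sub_self]
    exact dvd_zero _
  obtain ⟨k, l, hkl⟩ := exists_compl w i j hne
  exact ⟨_, _, mnr2 w i j, mnr2_homog hw i j, hij, square_of_plane hM hiso i j k l hkl⟩

/-- **The parity of the theta characteristic**, from the forms which contain a scroll. -/
theorem not_oneSec (hME : StmtME) (hFE : StmtFE) (hDE : StmtDE) (hHE : StmtHE)
    {M : Matrix (Fin 4) (Fin 4) R3} {g : R3} {r : ℕ} (hM : FibShape M)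
    (hs : SmoothTernary M.det) (hδ : M.adjugate 0 0 ≠ 0) (hr : 1 ≤ r)
    (hg : g.IsHomogeneous (2 * r)) (hgi : Irreducible g) (hgf : ¬ g ∣ M.det)
    {w : Fin 2 → Fin 4 → R3} {e : Fin 2 → ℕ}
    (hw : ∀ a i, (w a i).IsHomogeneous (e a + 1 - wt0 i))
    (hiso : ∀ a b, g ∣ w a ⬝ᵥ (M *ᵥ w b)) {i j : Fin 4} (hij : ¬ g ∣ mnr2 w i j)
    (hodd : ∀ N : ℕ, ∃ d, N ≤ d ∧ Odd (finrank ℂ (Phi g w d) + d + r)) : ¬ OneSec M g r := by
  intro h1
  obtain ⟨T, S, u, hTS, hu, hC, hQ, hP⟩ := H270.OddCoord.exists_even_frame hM hs (by omega) hg hgi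
    hgf hiso (mnr2_homog hw i j) hij
  have hfi := irreducible_of_smooth hM.det (by norm_num) hs
  have hsq : SquareMod M.det g := squareMod_of_plane hM.symm hw hiso hij
  obtain ⟨s, c, hc, hsc⟩ := (hsq.sb hTS).dh (sb_homog T hg) (by omega) (sb_irreducible hTS hgi)
  have hu' : IsUnit (C (C u) : ℂ[X][X]) :=
    isUnit_C.2 (isUnit_C.2 (isUnit_iff_ne_zero.2 hu))
  obtain ⟨J, hJ, hH⟩ := hHE (2 * r) _ _ (by omega) hC
    (prime_dh (sb_homog T hM.det) (by norm_num) (sb_irreducible hTS hfi))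
    (fun x y hxy => smooth_dh (sb_homog T hM.det) (sb_smooth hTS hs) x y hxy)
    ⟨s, c, by rwa [hu'.mul_left_dvd], by rwa [hu'.mul_left_dvd]⟩
  have hgw : ¬ (C (C u) * dh (sb T g)) ∣ mnr2 (fun a i => dh (sb T (w a i))) i j := by
    rw [hu'.mul_left_dvd]
    have h2 : mnr2 (fun a i => dh (sb T (w a i))) i j = dh (sb T (mnr2 w i j)) := by
      simp only [mnr2, map_sub, map_mul]
    rw [h2]
    intro h3
    exact hij ((sb_dvd_iff hTS).1 (dvd_of_dh_dvd' (sb_homog T hg) (by omega)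
      (sb_irreducible hTS hgi) (sb_homog T (mnr2_homog hw i j)) h3))
  have hle := modW_le hC.prime hQ.symm hQ.det hC.ndvd
    (fun i j k l => by
      have := adj_minor (M.map fun P => dh (sb T P)) i j k l
      rwa [hQ.det] at this) hP.iso hgw (J := J) (fun c hc => (hJ c).2 hc)
  obtain ⟨e₀, he₀⟩ := hME ℂ r hr _ _ _ J _ hC hH hQ hP
  have hZ := hDE M g r T S u J hM hs hδ hr hg hgi hgf hTS hu hC hQ hH hJ h1
  obtain ⟨d, hd, hdodd⟩ := hodd (e₀ + 2 * r)
  obtain ⟨e', rfl⟩ : ∃ e', d = r - 1 + e' := ⟨d - (r - 1), by omega⟩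
  have hF := hFE (2 * r) g w e T S u (by omega) hg hgi hw hTS hu hC.monic hC.deg hC.wd
    (r - 1 + e') (by omega)
  have hE := he₀ e' (by omega)
  rw [inf_eq_right.2 hle] at hE
  exact (Nat.not_even_iff_odd.2 hdodd) (parity_arith hr (by omega) hF hZ hE)

end Vale.Agent.P287.EvenN
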